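import Vale.Agent.P092FA.Tn

/-!
P092 (helper20), block F: the framed ambient algebra of a coupling and its gauge of level zero.
-/

set_option linter.all false

open scoped InnerProductSpace ENNReal ComplexConjugate
open MeasureTheory Filter Topology ContinuousLinearMap

namespace Vale.Agent.P092FA

open Vale.Agent.P092.RC (Cm)
open Vale.Agent.P092CP Vale.Agent.P092ST Vale.Agent.P092IN
open Vale.Agent.P092.H790 (koo koo_ae norm_koo koo_fld fld_comp)

variable {G G' K : Type} [Group G] [TopologicalSpace G] [IsTopologicalGroup G]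
  [LocallyCompactSpace G] [SecondCountableTopology G] [T2Space G] [MeasurableSpace G] [BorelSpace G]
  [Group G'] [TopologicalSpace G'] [IsTopologicalGroup G'] [LocallyCompactSpace G']
  [SecondCountableTopology G'] [T2Space G'] [MeasurableSpace G'] [BorelSpace G']
  [NormedAddCommGroup K] [InnerProductSpace ℂ K] [CompleteSpace K] {μ : Measure G}
  [μ.IsHaarMeasure] {μ' : Measure G'} [μ'.IsHaarMeasure] {W : Set (K →L[ℂ] K)}

/-- left translations -/
noncomputable def tr (μ : Measure G) [μ.IsHaarMeasure] (K : Type) [NormedAddCommGroup K]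
    [InnerProductSpace ℂ K] [CompleteSpace K] : G →* (Lp K 2 μ →L[ℂ] Lp K 2 μ) where
  toFun v := koo (fun x => v⁻¹ * x) (measurePreserving_mul_left μ v⁻¹)
  map_one' := ContinuousLinearMap.ext fun F => Lp.ext ((koo_ae _ _ F).trans (by simp))
  map_mul' v v' := ContinuousLinearMap.ext fun F => Lp.ext (by
    filter_upwards [koo_ae _ (measurePreserving_mul_left μ (v * v')⁻¹) F,
      koo_ae _ (measurePreserving_mul_left μ v⁻¹)
        (koo _ (measurePreserving_mul_left μ v'⁻¹) F),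
      (measurePreserving_mul_left μ v⁻¹).quasiMeasurePreserving.ae
        (koo_ae _ (measurePreserving_mul_left μ v'⁻¹) F)] with x a b c
    rw [a, mul_ap, b, c, mul_inv_rev, mul_assoc])

theorem tr_ae (v : G) (F : Lp K 2 μ) : ⇑(tr μ K v F) =ᵐ[μ] fun x => F (v⁻¹ * x) := koo_ae _ _ F

theorem norm_tr (v : G) (F : Lp K 2 μ) : ‖tr μ K v F‖ = ‖F‖ := norm_koo _ _ F

theorem cont_tr (F : Lp K 2 μ) : Continuous fun v => tr μ K v F := by
  have : Fact ((2 : ℝ≥0∞) ≠ ∞) := ⟨by norm_num⟩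
  have h : Continuous fun g : G => DomMulAct.mk g⁻¹ • F :=
    (DomMulAct.continuous_mk.comp continuous_inv).smul continuous_const
  exact h.congr fun g =>
    Lp.ext ((DomMulAct.smul_Lp_ae_eq (DomMulAct.mk g⁻¹) F).trans (tr_ae g F).symm)

theorem adj_tr (v : G) : adjoint (tr μ K v) = tr μ K v⁻¹ := by
  rw [eq_comm, eq_adjoint_iff]
  intro ξ η
  rw [← (LinearIsometry.mk (tr μ K v).toLinearMap (norm_tr v)).inner_map_map]
  exact congrArg (fun ζ => ⟪ζ, tr μ K v η⟫_ℂ) (pi_ap_inv v ξ)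

theorem tr_comp (v : G) (w : K →L[ℂ] K) : tr μ K v * w.compLpL 2 μ = w.compLpL 2 μ * tr μ K v :=
  koo_fld _ (fld_comp w) (fld_comp w)

theorem exists_basis (μ : Measure G) [μ.IsHaarMeasure] :
    ∃ (I : Type) (_ : HilbertBasis I ℂ (Lp ℂ 2 μ)), Nonempty (ℕ ≃ ℕ × I) := by
  have : Fact ((2 : ℝ≥0∞) ≠ ∞) := ⟨by norm_num⟩
  obtain ⟨w, b, -⟩ := exists_hilbertBasis ℂ (Lp ℂ 2 μ)
  have hc : Countable w := Pairwise.countable_of_isOpen_disjoint
    (s := fun i : w => Metric.ball (b i) (1 / 2)) (fun i j hij => Metric.ball_disjoint_ball (by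
      have h1 := norm_sub_sq (𝕜 := ℂ) (b i) (b j)
      rw [b.orthonormal.1, b.orthonormal.1, b.orthonormal.2 hij] at h1
      rw [dist_eq_norm]
      simp only [map_zero] at h1
      nlinarith [norm_nonneg (b i - b j)])) (fun _ => Metric.isOpen_ball)
    fun _ => Metric.nonempty_ball.2 (by norm_num)
  have hn : Nonempty w := by
    by_contra h
    rw [not_nonempty_iff] at h
    obtain ⟨L⟩ : Nonempty (TopologicalSpace.PositiveCompacts G) := inferInstance
    have h1 := b.repr.injective (Subsingleton.elim (b.repr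
      (indicatorConstLp 2 L.isCompact.measurableSet L.isCompact.measure_lt_top.ne (1 : ℂ)))
      (b.repr 0))
    have h2 := congrArg norm h1
    rw [norm_indicatorConstLp two_ne_zero ENNReal.ofNat_ne_top, norm_zero, norm_one, one_mul] at h2
    exact (Real.rpow_pos_of_pos (ENNReal.toReal_pos (Measure.measure_pos_of_nonempty_interior μ
      L.interior_nonempty).ne' L.isCompact.measure_lt_top.ne) _).ne' h2
  exact ⟨w, b, nonempty_equiv_of_countable⟩

section con

variable {I : Type} (f : HilbertBasis I ℂ (Lp ℂ 2 μ)) (q : ℕ ≃ ℕ × I)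

/-- the slots -/
noncomputable def io (K : Type) [NormedAddCommGroup K] [InnerProductSpace ℂ K] (n : ℕ) :
    K →L[ℂ] l2 (Lp K 2 μ) := sg _ (q n).1 ∘L tn (f (q n).2) fun _ => 1

theorem adj_io (n : ℕ) (ξ : l2 (Lp K 2 μ)) : adjoint (io f q K n) ξ =
    adjoint (tn (f (q n).2) fun _ => (1 : K →L[ℂ] K)) (adjoint (sg _ (q n).1) ξ) := by
  rw [io, adjoint_comp, comp_apply]

theorem sl_io [SecondCountableTopology K] : Sl (io f q K) := by
  refine sl_of (fun i ξ => ?_) (fun i j h ξ => ?_) fun ξ h => ?_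
  · rw [adj_io, io, comp_apply, sl_sg.same, is_one.adj, inner_self_eq_norm_sq_to_K,
      f.orthonormal.1]
    simp
  · rw [adj_io, io, comp_apply]
    rcases eq_or_ne (q i).1 (q j).1 with e | e
    · rw [e, sl_sg.same, is_one.adj, f.orthonormal.2 fun e' => h (q.injective (Prod.ext e e')),
        zero_smul]
    · rw [sl_sg.orth _ _ e, map_zero]
  · refine sl_sg.ext_vec fun m => ?_
    rw [map_zero]
    refine tn_total f fun i => ?_
    have := h (q.symm (m, i))
    rwa [adj_io, q.apply_symm_apply] at this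

theorem up_io [SecondCountableTopology K] (w : K →L[ℂ] K) :
    up (io f q K) w = up (sg _) (w.compLpL 2 μ) := (sl_io f q).ext fun i ξ => by
  rw [(sl_io f q).up_ι, io, comp_apply, comp_apply, sl_sg.up_ι, tn_comp]

theorem ext_io [SecondCountableTopology K] {e : ℕ → l2 (Lp K 2 μ) →L[ℂ] l2 (Lp K 2 μ)}
    (he : ∀ n m ξ, e n (sg _ m ξ) = sg _ (n.pair m) ξ) :
    Ext (io f q K) (upR sl_sg (tr μ K)) e where
  sl := sl_io f q
  lam_star g := (star_up sl_sg _).trans (congrArg _ (adj_tr g))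
  lam_cont := cont_up sl_sg norm_tr cont_tr
  lam_up g w := by
    rw [up_io]
    exact (sl_sg.up_mul _ _).symm.trans ((congrArg _ (tr_comp g w)).trans (sl_sg.up_mul _ _))
  e_up n w := by rw [up_io, ee_up he]
  e_lam n g := (ee_up he n _).symm
  e_iso := ee_iso he
  e_orth := ee_orth he

/-- columns -/
noncomputable def cn (ψ : Lp ℂ 2 μ) (a : G → K →L[ℂ] K) : l2 (Lp K 2 μ) →L[ℂ] l2 (Lp K 2 μ) :=
  sg _ 0 ∘L tn ψ a ∘L adjoint (io f q K 0)

variable [SecondCountableTopology K] {ψ : Lp ℂ 2 μ} {a : G → K →L[ℂ] K}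

theorem cn_io (ξ : K) : cn f q ψ a (io f q K 0 ξ) = sg _ 0 (tn ψ a ξ) := by
  rw [cn, comp_apply, comp_apply, (sl_io f q).same]

theorem ent_cn (h : Is μ a) (e : ∀ x, Cm W (a x)) : Ent (io f q K) W (cn f q ψ a) := fun k i => by
  rcases eq_or_ne 0 i with rfl | hi
  · rcases eq_or_ne (q k).1 0 with hk | hk
    · have : en (io f q K) (cn f q ψ a) k 0 = adjoint (tn (f (q k).2) fun _ => 1) ∘L tn ψ a :=
        ContinuousLinearMap.ext fun ξ => by rw [en_ap, cn_io, adj_io, hk, sl_sg.same, comp_apply]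
      rw [this]
      exact is_one.cm h (fun x => by rw [adjoint_one, one_mul]; exact e x) _ _
    · have : en (io f q K) (cn f q ψ a) k 0 = 0 :=
        ContinuousLinearMap.ext fun ξ => by
          rw [en_ap, cn_io, adj_io, sl_sg.orth _ _ hk, map_zero, zero_apply]
      rw [this]
      exact cm_zero
  · have : en (io f q K) (cn f q ψ a) k i = 0 :=
      ContinuousLinearMap.ext fun ξ => by
        rw [en_ap, cn, comp_apply, comp_apply, (sl_io f q).orth _ _ hi, map_zero, map_zero,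
          map_zero, zero_apply]
    rw [this]
    exact cm_zero

theorem star_cn (h : Is μ a) (h1 : ‖ψ‖ = 1) : star (cn f q ψ a) * cn f q ψ a =
    io f q K 0 ∘L (1 : K →L[ℂ] K) ∘L adjoint (io f q K 0) := ContinuousLinearMap.ext fun ξ => by
  rw [star_eq_adjoint, cn, adjoint_comp, adjoint_comp, adjoint_adjoint]
  simp only [mul_ap, comp_apply, sl_sg.same, h.adj, inner_self_eq_norm_sq_to_K, h1]
  simp

theorem cn_up (w : K →L[ℂ] K) :
    cn f q ψ (fun _ => 1) * up (io f q K) w = up (io f q K) w * cn f q ψ fun _ => 1 :=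
  ContinuousLinearMap.ext fun ξ => by
    rw [mul_ap, mul_ap, cn, comp_apply, comp_apply, comp_apply, comp_apply, (sl_io f q).adj_ι_up,
      up_io, sl_sg.up_ι, tn_comp]

end con

theorem sq_sqrt_sub {a b : ℝ} (ha : 0 ≤ a) (hb : 0 ≤ b) : (√a - √b) ^ 2 ≤ |a - b| := by
  have h1 := Real.sq_sqrt ha
  have h2 := Real.sq_sqrt hb
  have h3 := Real.sqrt_nonneg a
  have h4 := Real.sqrt_nonneg b
  rcases le_total √a √b with h | h
  · exact le_trans (by nlinarith) (neg_le_abs _)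
  · exact le_trans (by nlinarith) (le_abs_self _)

/-- **The framed ambient algebra of a coupling**, with its gauge of level zero. -/
theorem exists_fr (C : Cpl μ μ' W) (len : C.t.Γ → ℝ) (h1 : len 1 = 0)
    (h2 : ∀ s, len s⁻¹ = len s) (h3 : ∀ s t, len (s * t) ≤ len s + len t) :
    ∃ A : Amb G C.t.Γ (l2 (Lp K 2 μ)), Nonempty (Fr C A) ∧ A.len = len ∧
      ∀ D : Dyn G μ, A.L0 D.ρ := by
  haveI := C.sep
  obtain ⟨I, f, ⟨q⟩⟩ := exists_basis μ
  obtain ⟨e, he⟩ := exists_ee (K := Lp K 2 μ)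
  have h := ext_io f q he
  refine ⟨h.amb C len h1 h2 h3, ⟨h.fr C len h1 h2 h3⟩, rfl, fun D ε hε => ?_⟩
  obtain ⟨c, d, hb⟩ := D.bump
  obtain ⟨δ, hδ, hs⟩ := D.small {g | ‖C.s.π g C.t.Ω - C.t.Ω‖ < ε} ((isOpen_lt
    ((C.s.cont _).sub continuous_const).norm continuous_const).mem_nhds (by simpa using hε))
  obtain ⟨χ, c1, c2, c3, c4, c5, c6⟩ := hb (min δ 1) (lt_min hδ one_pos) (min_le_right _ _)
  have i1 : Integrable χ μ := c1.integrable_of_hasCompactSupport c2
  have m1 : MemLp (fun x => ((√(χ x) : ℝ) : ℂ)) 2 μ :=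
    (Complex.continuous_ofReal.comp c1.sqrt).memLp_of_hasCompactSupport
      (c2.comp_left (g := fun t : ℝ => ((√t : ℝ) : ℂ)) (by simp))
  have a1 := m1.coeFn_toLp
  set ψ := m1.toLp _
  have n1 : ‖ψ‖ = 1 := by
    have : ‖ψ‖ ^ 2 = 1 := by
      rw [@norm_sq_eq_re_inner ℂ, L2.inner_def, ← integral_re (L2.integrable_inner ψ ψ), ← c4]
      refine integral_congr_ae (a1.mono fun x hx => ?_)
      simp only [hx, ← norm_sq_eq_re_inner, Complex.norm_real, Real.norm_eq_abs, sq_abs,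
        Real.sq_sqrt (c3 x)]
    nlinarith [norm_nonneg ψ]
  have cu : ∀ ξ, Continuous fun g => adjoint (C.u g) ξ := fun ξ =>
    continuous_iff_continuousAt.2 fun g => C.tendsto_of_Ω (c := 1)
      (Eventually.of_forall fun g => ⟨C.M_adj (C.u_M g), opNorm_le_bound _ zero_le_one fun η => by
        rw [C.norm_adj_u, one_mul]⟩) (C.M_adj (C.u_M g)) (by
        rw [tendsto_iff_norm_sub_tendsto_zero]
        refine (tendsto_iff_norm_sub_tendsto_zero.1 ((C.cont_u C.t.Ω).tendsto g)).congr fun x => ?_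
        rw [← sub_apply, ← sub_apply, ← map_sub, C.norm_adj_Ω ((C.u_M x).sub (C.u_M g))]) ξ
  have hu : Is μ fun g => adjoint (C.u g) := ⟨fun ξ => (cu ξ).aestronglyMeasurable,
    fun x ξ η => by rw [adjoint_inner_right, ← mul_ap, C.u_mul_adj, one_apply_eq_self]⟩
  have hp : (h.amb C len h1 h2 h3).V 1 = io f q K 0 ∘L (1 : K →L[ℂ] K) ∘L adjoint (io f q K 0) := by
    rw [← C.s.π.map_one]; rfl
  refine ⟨cn f q ψ fun g => adjoint (C.u g), cn f q ψ fun _ => 1, |c / min δ 1 ^ d|,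
    Amb.deg_one_iff.2 (h.sl.ent_iff.1 (ent_cn f q hu fun x => C.t.M_iff.1 (C.M_adj (C.u_M x)))),
    Amb.deg_one_iff.2 (h.sl.ent_iff.1 (ent_cn f q is_one fun x => cm_one)),
    (star_cn f q hu n1).trans hp.symm, (star_cn f q is_one n1).trans hp.symm,
    fun X => cn_up f q _, ?_, fun v => ?_⟩
  · change ‖cn f q ψ _ (io f q K 0 C.t.Ω) - cn f q ψ _ (io f q K 0 C.t.Ω)‖ ≤ ε
    rw [cn_io, cn_io, ← map_sub, sl_sg.norm_ι]
    refine norm_le_of_ae (i1.mul_const (ε ^ 2)) hε.le ?_ (by rw [integral_mul_const, c4, one_mul])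
    filter_upwards [Lp.coeFn_sub (tn ψ (fun g => adjoint (C.u g)) C.t.Ω)
      (tn ψ (fun _ => 1) C.t.Ω), hu.ae ψ C.t.Ω, is_one.ae ψ C.t.Ω, a1] with x b1 b2 b3 b4
    rw [b1, Pi.sub_apply, b2, b3, b4, ← smul_sub, norm_smul, mul_pow, Complex.norm_real,
      Real.norm_eq_abs, sq_abs, Real.sq_sqrt (c3 x)]
    rcases eq_or_ne (χ x) 0 with b5 | b5
    · simp [b5]
    · have b6 : ‖C.s.π x C.t.Ω - C.t.Ω‖ < ε := hs x ((c5 x b5).trans (min_le_left _ _))
      rw [← C.norm_u x, map_sub, ← mul_ap, C.u_mul_adj, one_apply_eq_self,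
        C.u_Ω, norm_sub_rev]
      exact mul_le_mul_of_nonneg_left (by gcongr) (c3 x)
  · change ‖up (sg _) (tr μ K v) (up (io f q K) (C.V v) (cn f q ψ _ (io f q K 0 C.t.Ω))) -
      cn f q ψ _ (io f q K 0 (C.s.π v (adjoint (io f q K 0) (io f q K 0 C.t.Ω))))‖ ≤ _
    rw [cn_io, cn_io, h.sl.same, up_io, sl_sg.up_ι, sl_sg.up_ι, ← map_sub, sl_sg.norm_ι]
    refine norm_le_of_ae ((i1.comp_mul_left v⁻¹).sub i1).abs
      (mul_nonneg (abs_nonneg _) (D.ρ_nonneg v)) ?_ ((c6 v).trans (by rw [mul_pow, mul_pow, sq_abs]))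
    have qm := (measurePreserving_mul_left μ v⁻¹).quasiMeasurePreserving
    filter_upwards [Lp.coeFn_sub (tr μ K v ((C.V v).compLpL 2 μ
        (tn ψ (fun g => adjoint (C.u g)) C.t.Ω))) (tn ψ (fun g => adjoint (C.u g)) (C.s.π v C.t.Ω)),
      tr_ae v ((C.V v).compLpL 2 μ (tn ψ (fun g => adjoint (C.u g)) C.t.Ω)),
      qm.ae ((C.V v).coeFn_compLpL (tn ψ (fun g => adjoint (C.u g)) C.t.Ω)),
      qm.ae (hu.ae ψ C.t.Ω), hu.ae ψ (C.s.π v C.t.Ω), a1, qm.ae a1] with x b1 b2 b3 b4 b5 b6 b7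
    have b8 : C.V v (adjoint (C.u (v⁻¹ * x)) C.t.Ω) = adjoint (C.u x) (C.s.π v C.t.Ω) := by
      have b9 := C.u_mul' v (v⁻¹ * x)
      rw [mul_inv_cancel_left] at b9
      rw [b9, ← C.u_Ω, adj_mul, adj_mul, adj_mul, C.adj_V, C.adj_V, inv_inv, mul_ap, mul_ap, mul_ap,
        ← mul_ap (adjoint (C.u v)), C.adj_u_mul, one_apply_eq_self, C.V_Ω]
    rw [b1, Pi.sub_apply, b2, b3, b4, b5, b6, b7, map_smul, b8, ← sub_smul, norm_smul,
      C.norm_adj_u, C.s.norm_π, C.t.nΩ, mul_one, ← Complex.ofReal_sub, Complex.norm_real,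
      Real.norm_eq_abs, sq_abs]
    exact sq_sqrt_sub (c3 _) (c3 _)

end Vale.Agent.P092FA
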