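import Vale.Agent.P092ST.Hs
import Vale.Agent.P092CP.Four
import Vale.Agent.P092WN.Defs
import Mathlib.Analysis.Normed.Lp.lpHolder

/-!
P092 (helper20), block F: an ambient algebra framed over a coupling, and the data of the concrete
two-sided system.
-/

set_option linter.all false

open scoped InnerProductSpace ENNReal
open MeasureTheory Filter Topology ContinuousLinearMap

namespace Vale.Agent.P092FA

open Vale.Agent.P092.RC (Cm)
open Vale.Agent.P092CP Vale.Agent.P092ST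

section gen

variable {E F : Type} [NormedAddCommGroup E] [InnerProductSpace ℂ E] [NormedAddCommGroup F]
  [InnerProductSpace ℂ F]

/-- square summable sequences -/
abbrev l2 (E : Type) [NormedAddCommGroup E] : Type := lp (fun _ : ℕ => E) 2

/-- the diagonal operator -/
noncomputable def diag (a : E →L[ℂ] F) : l2 E →L[ℂ] l2 F :=
  lp.mapCLM 2 (fun _ => a) (norm_nonneg a) fun _ => le_rfl

/-- the compression to a closed subspace -/
noncomputable def rs (Y : Submodule ℂ E) [Y.HasOrthogonalProjection] (a : E →L[ℂ] E) :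
    Y →L[ℂ] Y := Y.orthogonalProjectionOnto ∘L a ∘L Y.subtypeL

end gen

variable {G G' K 𝒦 : Type} [Group G] [TopologicalSpace G] [IsTopologicalGroup G]
  [LocallyCompactSpace G] [SecondCountableTopology G] [T2Space G] [MeasurableSpace G] [BorelSpace G]
  [Group G'] [TopologicalSpace G'] [IsTopologicalGroup G'] [LocallyCompactSpace G']
  [SecondCountableTopology G'] [T2Space G'] [MeasurableSpace G'] [BorelSpace G']
  [NormedAddCommGroup K] [InnerProductSpace ℂ K] [CompleteSpace K] {μ : Measure G}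
  [μ.IsHaarMeasure] {μ' : Measure G'} [μ'.IsHaarMeasure] {W : Set (K →L[ℂ] K)}
  [NormedAddCommGroup 𝒦] [InnerProductSpace ℂ 𝒦] [CompleteSpace 𝒦]

/-- the union of the cells -/
def cells (S : Side μ' W) (X : Set S.Γ) : Set G' := ⋃ γ ∈ X, S.cell γ

/-- **A frame**: `𝒦` is a countable multiple of `K`, and the data of `A` are read on `C`. -/
structure Fr (C : Cpl μ μ' W) (A : Amb G C.t.Γ 𝒦) where
  /-- the copies of `K` -/
  ι : ℕ → K →L[ℂ] 𝒦
  /-- the amplification of `C.V` -/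
  U : G →* (𝒦 →L[ℂ] 𝒦)
  iso : ∀ i ξ, adjoint (ι i) (ι i ξ) = ξ
  orth : ∀ i j, i ≠ j → ∀ ξ, adjoint (ι i) (ι j ξ) = 0
  tot : ∀ ξ, HasSum (fun i => ι i (adjoint (ι i) ξ)) ξ
  Ω_eq : ∀ i, A.Ω i = ι i C.t.Ω
  V_eq : ∀ g, A.V g = ι 0 ∘L C.s.π g ∘L adjoint (ι 0)
  cm_iff : ∀ T, Cm A.𝓦 T ↔ ∀ i j, C.t.M (adjoint (ι i) ∘L T ∘L ι j)
  U_ι : ∀ g i ξ, U g (ι i ξ) = ι i (C.V g ξ)
  U_deg : ∀ g, A.Deg g (U g)
  Pj_ι : ∀ X i ξ, A.Pj X (ι i ξ) = ι i (C.t.P (cells C.t X) ξ)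

section amb

variable {Γ : Type} [Group Γ] (A : Amb G Γ 𝒦)

/-- the Hilbert-Schmidt ideal -/
def D : Submodule ℂ (𝒦 →L[ℂ] 𝒦) where
  carrier := {d | Cm A.𝓦 d ∧ A.HS d}
  zero_mem' := ⟨cm_zero, Amb.hs_zero⟩
  add_mem' := fun h h' => ⟨cm_add h.1 h'.1, h.2.add h'.2⟩
  smul_mem' := fun c _ h => ⟨cm_smul c h.1, h.2.smul c⟩

/-- `L²` of the amplified finite algebra -/
noncomputable abbrev HH : Submodule ℂ (l2 𝒦) := cl (D A) A.vec

/-- the vector of an operator (of any degree) -/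
noncomputable def vv : (𝒦 →L[ℂ] 𝒦) → HH A := pv (D A) A.vec

/-- left multiplication (by an operator of any degree, or by a function of the position) -/
noncomputable def lm (x : 𝒦 →L[ℂ] 𝒦) : HH A →L[ℂ] HH A := rs (HH A) (diag x)

/-- right multiplication by an operator of degree one -/
noncomputable def rm (y : 𝒦 →L[ℂ] 𝒦) : HH A →L[ℂ] HH A := Rm (D A) (vv A) y

/-- `ω V_g ω*` -/
noncomputable def tw (ω : 𝒦 →L[ℂ] 𝒦) (g : G) : 𝒦 →L[ℂ] 𝒦 := ω * A.V g * star ω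

variable [MeasurableSpace Γ]

/-- the operator with the blocks `T δ` from the cell `δ` to the cell `e δ` -/
noncomputable def glue (e : Γ → Γ) (T : Γ → 𝒦 →L[ℂ] 𝒦) : 𝒦 →L[ℂ] 𝒦 :=
  gram Measure.count (fun δ => A.Pj {e δ}) fun δ => A.Pj {e δ} * T δ * A.Pj {δ}

/-- the position calculus -/
noncomputable def Mf (f : Γ → ℝ) : 𝒦 →L[ℂ] 𝒦 := glue A id fun δ => (f δ : ℂ) • 1

/-- the Fourier components -/
noncomputable def fc (γ : Γ) (T : 𝒦 →L[ℂ] 𝒦) : 𝒦 →L[ℂ] 𝒦 := glue A (fun δ => γ * δ) fun _ => T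

end amb

/-- the trace zero part of `L²(M)` -/
noncomputable abbrev H0 (C : Cpl μ μ' W) : Submodule ℂ C.t.LM := (ℂ ∙ C.t.vM 1)ᗮ

theorem rep_mem (C : Cpl μ μ' W) (g : G) (ξ : H0 C) : C.admM.rep g ξ ∈ H0 C :=
  (Submodule.mem_orthogonal_singleton_iff_inner_right).2 (by
    rw [← C.rep_one g, C.admM.inner_rep]
    exact (Submodule.mem_orthogonal_singleton_iff_inner_right).1 ξ.2)

/-- the representation of the source on the trace zero part -/
noncomputable def σ0 (C : Cpl μ μ' W) : G →* (H0 C →L[ℂ] H0 C) where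
  toFun g := (C.admM.rep g ∘L (H0 C).subtypeL).codRestrict _ (rep_mem C g)
  map_one' := ContinuousLinearMap.ext fun ξ => Subtype.ext (ap_eq C.admM.rep.map_one ξ)
  map_mul' g h := ContinuousLinearMap.ext fun ξ => Subtype.ext (ap_eq (C.admM.rep.map_mul g h) ξ)

/-- the projection of `K` onto the trace zero part of `L²(M)` -/
noncomputable def pr0 (C : Cpl μ μ' W) : K →L[ℂ] H0 C :=
  (H0 C).orthogonalProjectionOnto ∘L C.t.LM.orthogonalProjectionOnto

namespace Fr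

variable {C : Cpl μ μ' W} {A : Amb G C.t.Γ 𝒦} (Φ : Fr C A)

/-- right multiplication by `y` of degree `s`, on the vectors of degree `g` -/
noncomputable def rg (g s : G) (y : 𝒦 →L[ℂ] 𝒦) : HH A →L[ℂ] HH A :=
  rm A (Φ.U g * y * Φ.U (g * s)⁻¹)

/-- left multiplications of degree `h` -/
def Lf (h : G) (a : HH A →L[ℂ] HH A) : Prop := ∃ x, A.Deg h x ∧ a = lm A x

/-- right multiplications -/
def Rt (b : G → HH A →L[ℂ] HH A) : Prop :=
  ∃ y, Cm A.𝓦 y ∧ ∀ g, b g = rm A (Φ.U g * y * Φ.U g⁻¹)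

/-- bounded vectors -/
def Am (ξ : HH A) (c : ℝ) : Prop := ∃ d ∈ D A, ξ = vv A d ∧ ‖d‖ ≤ c

/-- `T ↦ (ι₀* ω* T ω V_g⁻¹ ι₀) Ω`, projected to the trace zero part -/
noncomputable def jm (ω : 𝒦 →L[ℂ] 𝒦) (g : G) : HH A →L[ℂ] H0 C :=
  pr0 C ∘L adjoint (Φ.ι 0) ∘L star ω ∘L lp.evalCLM ℂ (fun _ : ℕ => 𝒦) 2 0 ∘L (HH A).subtypeL ∘L
    rm A (Φ.U g * ω * A.V g⁻¹)

end Fr

end Vale.Agent.P092FA
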