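import Vale.Agent.P092FA.Defs
import Vale.Agent.P092IN.Slot

/-!
P092 (helper20), block F: the ambient algebra of a coupling, from slots, shifts and isometries.
-/

set_option linter.all false

open scoped InnerProductSpace ENNReal
open MeasureTheory Filter Topology ContinuousLinearMap

namespace Vale.Agent.P092FA

open Vale.Agent.P092.RC (Cm)
open Vale.Agent.P092CP Vale.Agent.P092ST Vale.Agent.P092IN

variable {G G' K 𝒦 : Type} [Group G] [TopologicalSpace G] [IsTopologicalGroup G]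
  [LocallyCompactSpace G] [SecondCountableTopology G] [T2Space G] [MeasurableSpace G] [BorelSpace G]
  [Group G'] [TopologicalSpace G'] [IsTopologicalGroup G'] [LocallyCompactSpace G']
  [SecondCountableTopology G'] [T2Space G'] [MeasurableSpace G'] [BorelSpace G']
  [NormedAddCommGroup K] [InnerProductSpace ℂ K] [CompleteSpace K] {μ : Measure G}
  [μ.IsHaarMeasure] {μ' : Measure G'} [μ'.IsHaarMeasure] {W : Set (K →L[ℂ] K)}
  [NormedAddCommGroup 𝒦] [InnerProductSpace ℂ 𝒦] [CompleteSpace 𝒦]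

section cells

variable (S : Side μ' W)

theorem meas_cells (X : Set S.Γ) : MeasurableSet (cells S X) :=
  haveI := S.cnt
  MeasurableSet.biUnion (Set.to_countable X) fun γ _ => S.meas_cell γ

theorem mem_cells {X : Set S.Γ} {x : G'} : x ∈ cells S X ↔ ∃ γ ∈ X, x * γ ∈ S.D := by
  simp [cells, Side.cell]

theorem cells_compl (X : Set S.Γ) : cells S Xᶜ = (cells S X)ᶜ := by
  ext x
  obtain ⟨γ, h1, h2⟩ := S.fund x
  rw [Set.mem_compl_iff, mem_cells, mem_cells]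
  refine ⟨fun ⟨a, ha, ha'⟩ ⟨b, hb, hb'⟩ => ha ?_, fun h => ⟨γ, fun h3 => h ⟨γ, h3, h1⟩, h1⟩⟩
  rw [h2 a ha', ← h2 b hb']
  exact hb

theorem cells_disj {X Y : Set S.Γ} (h : Disjoint X Y) : cells S X ∩ cells S Y = ∅ := by
  refine Set.eq_empty_of_forall_notMem fun x ⟨h1, h2⟩ => ?_
  obtain ⟨a, ha, ha'⟩ := (mem_cells S).1 h1
  obtain ⟨b, hb, hb'⟩ := (mem_cells S).1 h2
  exact Set.disjoint_left.1 h ha ((S.fund x).unique ha' hb' ▸ hb)

end cells

/-- slots, scalar shifts and scalar isometries -/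
structure Ext (ι : ℕ → K →L[ℂ] 𝒦) (lam : G →* (𝒦 →L[ℂ] 𝒦)) (e : ℕ → 𝒦 →L[ℂ] 𝒦) : Prop where
  sl : Sl ι
  lam_star : ∀ g, star (lam g) = lam g⁻¹
  lam_cont : ∀ ξ, Continuous fun g => lam g ξ
  lam_up : ∀ g w, lam g * up ι w = up ι w * lam g
  e_up : ∀ n w, e n * up ι w = up ι w * e n
  e_lam : ∀ n g, lam g * e n = e n * lam g
  e_iso : ∀ n, star (e n) * e n = 1
  e_orth : ∀ n m, n ≠ m → star (e n) * e m = 0

variable {ι : ℕ → K →L[ℂ] 𝒦} {lam : G →* (𝒦 →L[ℂ] 𝒦)} {e : ℕ → 𝒦 →L[ℂ] 𝒦}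

theorem up_add (h : Sl ι) (w w' : K →L[ℂ] K) : up ι (w + w') = up ι w + up ι w' :=
  h.ext fun i ξ => by rw [add_apply, h.up_ι, h.up_ι, h.up_ι, add_apply, map_add]

theorem up_zero (h : Sl ι) : up ι 0 = 0 := h.ext fun i ξ => by
  rw [h.up_ι, zero_apply, zero_apply, map_zero]

theorem star_up (h : Sl ι) (w : K →L[ℂ] K) : star (up ι w) = up ι (adjoint w) := h.adj_up w

theorem total (h : Sl ι) : (Submodule.span ℂ {ξ | ∃ i η, ξ = ι i η}).topologicalClosure = ⊤ :=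
  eq_top_iff.2 fun ξ _ => mem_closure_of_tendsto (h.sum ξ) (Eventually.of_forall fun s =>
    Submodule.sum_mem _ fun i _ => Submodule.subset_span ⟨i, _, rfl⟩)

/-- the amplification of a representation -/
noncomputable def upR (h : Sl ι) (ρ : G →* (K →L[ℂ] K)) : G →* (𝒦 →L[ℂ] 𝒦) where
  toFun g := up ι (ρ g)
  map_one' := by rw [map_one, h.up_one]
  map_mul' g g' := by rw [map_mul, h.up_mul]

theorem cont_up (h : Sl ι) {ρ : G → K →L[ℂ] K} (h1 : ∀ g η, ‖ρ g η‖ = ‖η‖)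
    (h2 : ∀ η, Continuous fun g => ρ g η) (ξ : 𝒦) : Continuous fun g => up ι (ρ g) ξ :=
  continuous_iff_continuousAt.2 fun g => tendsto_of_total (total h) (c := 1)
    (A := fun g => up ι (ρ g)) (Eventually.of_forall fun g => (h.norm_up _).trans
      (opNorm_le_bound _ zero_le_one fun η => by rw [h1, one_mul]))
    (by
      rintro _ ⟨i, η, rfl⟩
      simp only [h.up_ι]
      exact ((ι i).continuous.comp (h2 η)).tendsto g) ξ

theorem cm_up (C : Cpl μ μ' W) (h : Sl ι) {T : 𝒦 →L[ℂ] 𝒦} :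
    Cm (up ι '' (W ∪ Set.range C.t.π)) T ↔ ∀ k i, C.t.M (en ι T k i) :=
  h.ent_iff.symm.trans (forall₂_congr fun _ _ => C.t.M_iff.symm)

namespace Ext

variable (h : Ext ι lam e)
include h

theorem cm_lam (g : G) (W : Set (K →L[ℂ] K)) : Cm (up ι '' W) (lam g) := by
  rintro _ ⟨w, -, rfl⟩
  exact h.lam_up g w

theorem norm_lam (g : G) (ξ : 𝒦) : ‖lam g ξ‖ = ‖ξ‖ :=
  norm_map_of_mem_unitary ⟨by rw [h.lam_star, pi_inv_mul], by rw [h.lam_star, pi_mul_inv]⟩ ξ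

/-- the shifts -/
noncomputable def SH (C : Cpl μ μ' W) : G →* (𝒦 →L[ℂ] 𝒦) where
  toFun g := lam g * up ι (C.V g)
  map_one' := by rw [map_one, map_one, h.sl.up_one, mul_one]
  map_mul' g g' := by
    rw [map_mul, map_mul, h.sl.up_mul, mul_assoc, mul_assoc, ← mul_assoc (lam g'), h.lam_up,
      mul_assoc]

theorem SH_def (C : Cpl μ μ' W) (g : G) : h.SH C g = lam g * up ι (C.V g) := rfl

theorem SH_def' (C : Cpl μ μ' W) (g : G) : h.SH C g = up ι (C.V g) * lam g := h.lam_up _ _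

theorem tsum_adj (C : Cpl μ μ' W) {a : 𝒦 →L[ℂ] 𝒦} (ha : ∀ k i, C.t.M (en ι a k i)) :
    ∑' i, ‖adjoint a (ι i C.t.Ω)‖ₑ ^ 2 = ∑' i, ‖a (ι i C.t.Ω)‖ₑ ^ 2 := by
  simp only [fun i => h.sl.enorm_sq (adjoint a (ι i C.t.Ω)), fun i => h.sl.enorm_sq (a (ι i C.t.Ω))]
  rw [ENNReal.tsum_comm]
  refine tsum_congr fun k => tsum_congr fun i => ?_
  rw [← en_ap, ← en_ap, en_adj, ← ofReal_norm, C.norm_adj_Ω (ha _ _), ofReal_norm]

/-- **the ambient algebra of a coupling** -/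
noncomputable def amb (C : Cpl μ μ' W) (len : C.t.Γ → ℝ) (h1 : len 1 = 0)
    (h2 : ∀ s, len s⁻¹ = len s) (h3 : ∀ s t, len (s * t) ≤ len s + len t) : Amb G C.t.Γ 𝒦 where
  SH := h.SH C
  V g := ι 0 ∘L C.s.π g ∘L adjoint (ι 0)
  𝓦 := up ι '' (W ∪ Set.range C.t.π)
  Pj X := up ι (C.t.P (cells C.t X))
  len := len
  e := e
  Ω i := ι i C.t.Ω
  SH_star g := by rw [SH_def, star_mul, star_up h.sl, C.adj_V, h.lam_star, SH_def']
  SH_cont ξ := continuous_iff_continuousAt.2 fun g => by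
    have a1 := ((cont_up h.sl C.norm_V C.cont_V ξ).tendsto g).sub_const (up ι (C.V g) ξ)
    rw [sub_self] at a1
    have a2 : Tendsto (fun x => lam x (up ι (C.V x) ξ - up ι (C.V g) ξ)) (𝓝 g) (𝓝 0) :=
      squeeze_zero_norm (fun x => (h.norm_lam _ _).le) (tendsto_zero_iff_norm_tendsto_zero.1 a1)
    have a3 := a2.add ((h.lam_cont (up ι (C.V g) ξ)).tendsto g)
    rw [zero_add] at a3
    exact a3.congr fun x => by rw [map_sub, sub_add_cancel]; rfl
  V_mul g g' := ContinuousLinearMap.ext fun ξ => by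
    simp only [mul_ap, comp_apply, h.sl.same, pi_ap]
  V_star g := by
    rw [star_eq_adjoint, adjoint_comp, adjoint_comp, adjoint_adjoint, C.s.adj, comp_assoc]
  W_star := by
    rintro _ ⟨w, hw, rfl⟩
    exact ⟨adjoint w, hw.imp (C.Wadj w) (C.t.range_adj w), (star_up h.sl w).symm⟩
  nrm T hT g := by
    have e1 : h.SH C g * T * h.SH C g⁻¹ =
        lam g * (up ι (C.V g) * T * up ι (C.V g⁻¹)) * lam g⁻¹ := by
      rw [SH_def, SH_def']; simp only [mul_assoc]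
    rw [e1]
    refine cm_mul (cm_mul (h.cm_lam _ _) ((cm_up C h.sl).2 fun k i => ?_)) (h.cm_lam _ _)
    rw [h.sl.en_mul_up, h.sl.en_up_mul]
    exact C.M_α ((cm_up C h.sl).1 hT k i) g
  V_deg g := by
    have e1 : (ι 0 ∘L C.s.π g ∘L adjoint (ι 0)) * up ι (C.V g⁻¹) =
        ι 0 ∘L C.u g ∘L adjoint (ι 0) := ContinuousLinearMap.ext fun ξ => by
      simp only [mul_ap, comp_apply, h.sl.adj_ι_up, ← C.u_V, pi_ap_inv]
    rw [SH_def', ← mul_assoc, e1]
    exact cm_mul (h.sl.ent_iff.1 (h.sl.ent_slot (C.t.M_iff.1 (C.u_M g)) 0 0)) (h.cm_lam _ _)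
  e_cm n := by
    rintro _ ⟨w, -, rfl⟩
    exact h.e_up n w
  e_SH n g := by rw [SH_def, mul_assoc, ← h.e_up, ← mul_assoc, h.e_lam, mul_assoc]
  e_iso := h.e_iso
  e_orth := h.e_orth
  Pj_compl X := by
    rw [← up_add h.sl, cells_compl, C.t.P_compl (meas_cells _ _), add_sub_cancel, h.sl.up_one]
  Pj_star X := by rw [star_up h.sl, C.t.adjoint_P (meas_cells _ _)]
  Pj_disj X Y hd := by
    rw [← h.sl.up_mul, C.t.P_mul (meas_cells _ _) (meas_cells _ _), cells_disj _ hd, C.t.P_empty,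
      up_zero h.sl]
  Pj_SH X g := by
    rw [SH_def, mul_assoc, ← h.sl.up_mul, Side.P, C.V_m g (Bd.ind (meas_cells _ _)), h.sl.up_mul,
      ← mul_assoc, h.lam_up, mul_assoc]
  Pj_e X n := h.e_up n _
  Pj_p X := ContinuousLinearMap.ext fun ξ => by
    simp only [mul_ap, comp_apply, h.sl.adj_ι_up, h.sl.up_ι, map_one]
    rfl
  len_one := h1
  len_inv := h2
  len_mul := h3
  Ω_zero := by simp only [comp_apply, h.sl.same, map_one]; rfl
  Ω_succ i := by simp only [comp_apply, h.sl.orth 0 (i + 1) (by omega), map_zero]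
  Ω_norm := by rw [h.sl.norm_ι, C.t.nΩ]
  tr_adj g T hT := by
    have a1 : Cm (up ι '' (W ∪ Set.range C.t.π)) (T * up ι (C.V g⁻¹)) := by
      have := cm_mul hT (h.cm_lam g _)
      rwa [SH_def', mul_assoc, mul_assoc, pi_inv_mul, mul_one] at this
    have a2 := h.tsum_adj C ((cm_up C h.sl).1 a1)
    simp only [adj_mul, mul_ap, h.sl.up_ι, C.V_Ω, h.sl.adj_up, C.adj_V, inv_inv] at a2
    rw [← a2]
    refine tsum_congr fun i => ?_
    have a3 : up ι (C.V g) ∈ unitary (𝒦 →L[ℂ] 𝒦) :=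
      ⟨by rw [star_up h.sl, C.adj_V, ← h.sl.up_mul, pi_inv_mul, h.sl.up_one],
        by rw [star_up h.sl, C.adj_V, ← h.sl.up_mul, pi_mul_inv, h.sl.up_one]⟩
    rw [← ofReal_norm, ← ofReal_norm, norm_map_of_mem_unitary a3]
    rfl
  faith T hT h0 := h.sl.ext_en fun k i => by
    rw [en_zero]
    exact C.eq_zero_of_Ω ((cm_up C h.sl).1 hT k i) (by rw [en_ap, h0, map_zero])

/-- its frame -/
noncomputable def fr (C : Cpl μ μ' W) (len : C.t.Γ → ℝ) (h1 : len 1 = 0)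
    (h2 : ∀ s, len s⁻¹ = len s) (h3 : ∀ s t, len (s * t) ≤ len s + len t) :
    Fr C (h.amb C len h1 h2 h3) where
  ι := ι
  U := upR h.sl C.V
  iso := h.sl.same
  orth := h.sl.orth
  tot := h.sl.sum
  Ω_eq _ := rfl
  V_eq _ := rfl
  cm_iff _ := cm_up C h.sl
  U_ι g i ξ := h.sl.up_ι _ i ξ
  U_deg g := by
    have e1 : up ι (C.V g) * h.SH C g⁻¹ = lam g⁻¹ := by
      rw [SH_def', ← mul_assoc, ← h.sl.up_mul, pi_mul_inv, h.sl.up_one, one_mul]
    change Cm _ (up ι (C.V g) * h.SH C g⁻¹)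
    rw [e1]
    exact h.cm_lam _ _
  Pj_ι X i ξ := h.sl.up_ι _ i ξ

end Ext

end Vale.Agent.P092FA
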