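import Vale.Agent.P092FA.Abs

/-!
P092 (helper20), block F: the concrete amplified space `ℓ²(ℕ; L²(G; K))`.
-/

set_option linter.all false

open scoped InnerProductSpace ENNReal ComplexConjugate
open MeasureTheory Filter Topology ContinuousLinearMap

namespace Vale.Agent.P092FA

open Vale.Agent.P092.RC (Cm)
open Vale.Agent.P092CP Vale.Agent.P092ST Vale.Agent.P092IN
open Vale.Agent.P092.H790 (koo koo_ae norm_koo)

section sl

variable {K 𝒦 : Type} [NormedAddCommGroup K] [InnerProductSpace ℂ K] [CompleteSpace K]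
  [NormedAddCommGroup 𝒦] [InnerProductSpace ℂ 𝒦] [CompleteSpace 𝒦]

theorem sl_of {ι : ℕ → K →L[ℂ] 𝒦} (h1 : ∀ i ξ, adjoint (ι i) (ι i ξ) = ξ)
    (h2 : ∀ i j, i ≠ j → ∀ ξ, adjoint (ι i) (ι j ξ) = 0)
    (h3 : ∀ ξ, (∀ i, adjoint (ι i) ξ = 0) → ξ = 0) : Sl ι := by
  refine ⟨h1, h2, fun ξ => ?_⟩
  let V : ℕ → K →ₗᵢ[ℂ] 𝒦 := fun i => (ι i).toLinearMap.isometryOfInner fun ξ η => by
    change ⟪ι i ξ, ι i η⟫_ℂ = _
    rw [← adjoint_inner_right, h1]
  have hV : OrthogonalFamily ℂ (fun _ : ℕ => K) V := fun i j hij ξ η => by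
    change ⟪ι i ξ, ι j η⟫_ℂ = 0
    rw [← adjoint_inner_right, h2 i j hij, inner_zero_right]
  have hs := IsHilbertSum.mk hV (by
    rw [top_le_iff, Submodule.topologicalClosure_eq_top_iff, eq_bot_iff]
    intro η hη
    refine h3 η fun i => ext_inner_left ℂ fun ζ => ?_
    rw [adjoint_inner_right, inner_zero_right]
    exact hη _ (Submodule.mem_iSup_of_mem i ⟨ζ, rfl⟩))
  have a := hs.hasSum_linearIsometryEquiv_symm (hs.linearIsometryEquiv ξ)
  rw [LinearIsometryEquiv.symm_apply_apply] at a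
  have b : ∀ i, adjoint (ι i) ξ = hs.linearIsometryEquiv ξ i := fun i =>
    (a.mapL (adjoint (ι i))).unique (by
      have := hasSum_single (f := fun j => adjoint (ι i) (V j (hs.linearIsometryEquiv ξ j))) i
        fun j hj => h2 i j hj.symm _
      rwa [show adjoint (ι i) (V i (hs.linearIsometryEquiv ξ i)) = _ from h1 i _] at this)
  simp only [b]
  exact a

/-- the coordinate inclusions -/
noncomputable def sg (K : Type) [NormedAddCommGroup K] [InnerProductSpace ℂ K] (m : ℕ) :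
    K →L[ℂ] l2 K := lp.singleContinuousLinearMap ℂ (fun _ : ℕ => K) 2 m

theorem adj_sg (m : ℕ) (y : l2 K) : adjoint (sg K m) y = y m := ext_inner_left ℂ fun x => by
  rw [adjoint_inner_right]
  exact lp.inner_single_left (𝕜 := ℂ) m x y

theorem sl_sg : Sl (sg K) :=
  ⟨fun i ξ => by rw [adj_sg]; exact lp.single_apply_self (E := fun _ : ℕ => K) 2 i ξ,
    fun i j h ξ => by rw [adj_sg]; exact lp.single_apply_ne (E := fun _ : ℕ => K) 2 j ξ h,
    fun ξ => by simp only [adj_sg]; exact lp.hasSum_single ENNReal.ofNat_ne_top ξ⟩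

theorem exists_ee : ∃ e : ℕ → l2 K →L[ℂ] l2 K, ∀ n m ξ, e n (sg K m ξ) = sg K (n.pair m) ξ := by
  let V : ℕ → K →ₗᵢ[ℂ] l2 K := fun i => ⟨(sg K i).toLinearMap, sl_sg.norm_ι i⟩
  have hV : ∀ n : ℕ, OrthogonalFamily ℂ (fun _ : ℕ => K) fun m => V (n.pair m) :=
    fun n i j hij ξ η => by
      change ⟪sg K _ ξ, sg K _ η⟫_ℂ = 0
      rw [← adjoint_inner_right, sl_sg.orth _ _ (fun h => hij (Nat.pair_eq_pair.1 h).2),
        inner_zero_right]
  exact ⟨fun n => (hV n).linearIsometry.toContinuousLinearMap, fun n m ξ =>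
    (hV n).linearIsometry_apply_single ξ⟩

variable {e : ℕ → l2 K →L[ℂ] l2 K} (he : ∀ n m ξ, e n (sg K m ξ) = sg K (n.pair m) ξ)
include he

theorem ee_en (n n' k i : ℕ) (ξ : K) :
    en (sg K) (star (e n) * e n') k i ξ = adjoint (sg K (n.pair k)) (sg K (n'.pair i) ξ) :=
  ext_inner_left ℂ fun η => by
    rw [en_ap, adjoint_inner_right, mul_ap, star_eq_adjoint, adjoint_inner_right, he, he,
      adjoint_inner_right]

theorem ee_iso (n : ℕ) : star (e n) * e n = 1 := sl_sg.ext_en fun k i =>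
  ContinuousLinearMap.ext fun ξ => by
    rw [ee_en he, en_ap, one_apply_eq_self]
    rcases eq_or_ne k i with rfl | h
    · rw [sl_sg.same, sl_sg.same]
    · rw [sl_sg.orth _ _ h, sl_sg.orth _ _ fun h' => h (Nat.pair_eq_pair.1 h').2]

theorem ee_orth (n n' : ℕ) (h : n ≠ n') : star (e n) * e n' = 0 := sl_sg.ext_en fun k i =>
  ContinuousLinearMap.ext fun ξ => by
    rw [ee_en he, en_zero, sl_sg.orth _ _ fun h' => h (Nat.pair_eq_pair.1 h').1, zero_apply]

theorem ee_up (n : ℕ) (a : K →L[ℂ] K) : e n * up (sg K) a = up (sg K) a * e n :=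
  sl_sg.ext fun i ξ => by rw [mul_ap, mul_ap, sl_sg.up_ι, he, he, sl_sg.up_ι]

end sl

section tn

variable {X K : Type} [MeasurableSpace X] {μ : Measure X} [NormedAddCommGroup K]
  [InnerProductSpace ℂ K] [CompleteSpace K]

/-- measurable fields of isometries -/
structure Is (μ : Measure X) (a : X → K →L[ℂ] K) : Prop where
  meas : ∀ ξ, AEStronglyMeasurable (fun x => a x ξ) μ
  inn : ∀ x ξ η, ⟪a x ξ, a x η⟫_ℂ = ⟪ξ, η⟫_ℂ

/-- `ξ ↦ (x ↦ f x • a x ξ)` -/
noncomputable def tn (f : Lp ℂ 2 μ) (a : X → K →L[ℂ] K) : K →L[ℂ] Lp K 2 μ :=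
  col μ fun x => f x • a x

theorem is_one : Is μ fun _ : X => (1 : K →L[ℂ] K) :=
  ⟨fun _ => aestronglyMeasurable_const, fun _ _ _ => rfl⟩

variable {a b : X → K →L[ℂ] K} (h : Is μ a)
include h

theorem Is.norm (x : X) (ξ : K) : ‖a x ξ‖ = ‖ξ‖ := by
  rw [@norm_eq_sqrt_re_inner ℂ, h.inn, ← norm_eq_sqrt_re_inner]

theorem Is.sqi (f : Lp ℂ 2 μ) : SqI μ (fun x => f x • a x) ‖f‖ where
  meas ξ := (Lp.aestronglyMeasurable f).smul (h.meas ξ)
  nn := norm_nonneg _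
  bdd ξ := by
    rw [ofReal_norm, enorm_sq, ← lintegral_mul_const'' _ (meas_sq f)]
    refine lintegral_mono fun x => le_of_eq ?_
    rw [smul_apply, enorm_smul, mul_pow, ← ofReal_norm (a x ξ), h.norm, ofReal_norm]

theorem Is.ae (f : Lp ℂ 2 μ) (ξ : K) : ⇑(tn f a ξ) =ᵐ[μ] fun x => f x • a x ξ :=
  (h.sqi f).col_ae ξ

theorem Is.inner (f : Lp ℂ 2 μ) (ξ : K) (F : Lp K 2 μ) :
    ⟪tn f a ξ, F⟫_ℂ = ∫ x, ⟪f x, ⟪a x ξ, F x⟫_ℂ⟫_ℂ ∂μ := by
  rw [L2.inner_def]
  refine integral_congr_ae ((h.ae f ξ).mono fun x hx => ?_)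
  simp only [hx, inner_smul_left, RCLike.inner_apply, mul_comm]

theorem Is.adj (f f' : Lp ℂ 2 μ) (ξ : K) : adjoint (tn f a) (tn f' a ξ) = ⟪f, f'⟫_ℂ • ξ :=
  ext_inner_left ℂ fun η => by
    rw [adjoint_inner_right, h.inner, inner_smul_right, L2.inner_def f, ← integral_mul_const]
    refine integral_congr_ae ((h.ae f' ξ).mono fun x hx => ?_)
    simp only [hx, inner_smul_right, h.inn, RCLike.inner_apply]
    ring

theorem Is.cm (hb : Is μ b) {W : Set (K →L[ℂ] K)} (e : ∀ x, Cm W (adjoint (a x) * b x))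
    (f f' : Lp ℂ 2 μ) : Cm W (adjoint (tn f a) ∘L tn f' b) :=
  (h.sqi f).gram_cm (hb.sqi f') fun x => by
    have : adjoint (f x • a x) ∘L (f' x • b x) = (conj (f x) * f' x) • (adjoint (a x) * b x) := by
      rw [map_smulₛₗ, smul_comp, comp_smul, smul_smul]; rfl
    rw [this]
    exact cm_smul _ (e x)

omit h in
theorem tn_comp (f : Lp ℂ 2 μ) (w : K →L[ℂ] K) (ξ : K) :
    w.compLpL 2 μ (tn f (fun _ => 1) ξ) = tn f (fun _ => 1) (w ξ) := Lp.ext (by
  filter_upwards [w.coeFn_compLpL (tn f (fun _ => 1) ξ), is_one.ae f ξ, is_one.ae f (w ξ)]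
    with x a b c
  rw [a, b, c, map_smul]
  rfl)

omit h in
theorem tn_total [SecondCountableTopology K] {I : Type} (f : HilbertBasis I ℂ (Lp ℂ 2 μ))
    {F : Lp K 2 μ} (e : ∀ i, adjoint (tn (f i) fun _ => (1 : K →L[ℂ] K)) F = 0) : F = 0 := by
  refine Lp.ext ((ae_eq_zero_of_forall_inner (𝕜 := ℂ) fun ξ => ?_).trans
    (Lp.coeFn_zero K 2 μ).symm)
  have a1 := (innerSL ℂ ξ).coeFn_compLpL F
  have a2 : (innerSL ℂ ξ).compLpL 2 μ F = 0 := f.repr.injective (lp.ext (funext fun i => by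
    rw [f.repr_apply_apply, map_zero, L2.inner_def]
    have a3 := is_one.inner (f i) ξ F
    rw [← adjoint_inner_right, e, inner_zero_right] at a3
    exact (integral_congr_ae (a1.mono fun x hx => by simp only [hx]; rfl)).trans a3.symm))
  rw [a2] at a1
  exact a1.symm.trans (Lp.coeFn_zero ℂ 2 μ)

omit h in
theorem norm_le_of_ae {F : Lp K 2 μ} {r : X → ℝ} (hr : Integrable r μ) {c : ℝ} (hc : 0 ≤ c)
    (h1 : ∀ᵐ x ∂μ, ‖F x‖ ^ 2 ≤ r x) (h2 : ∫ x, r x ∂μ ≤ c ^ 2) : ‖F‖ ≤ c := by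
  refine (pow_le_pow_iff_left₀ (norm_nonneg _) hc two_ne_zero).1 (le_trans ?_ h2)
  have a : ‖F‖ ^ 2 = ∫ x, ‖F x‖ ^ 2 ∂μ := by
    rw [@norm_sq_eq_re_inner ℂ, L2.inner_def, ← integral_re (L2.integrable_inner F F)]
    exact integral_congr_ae (Eventually.of_forall fun x => (norm_sq_eq_re_inner _).symm)
  rw [a]
  exact integral_mono_of_nonneg (Eventually.of_forall fun x => by positivity) hr h1

end tn

end Vale.Agent.P092FA
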